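import Mathlib

/-!
The trace of an element of a finite integral extension `P ⊆ A` of an integrally closed domain,
seen through a point `φ : P → F` with values in an algebraically closed field: it is a positive
multiple of the sum of the values at the points of `A` above `φ` (with multiplicities).
-/

namespace Vale.Agent.P266.Trace

set_option linter.unusedSectionVars false

open Polynomial

noncomputable section

/-- A point of an integral subalgebra extends to the big algebra. -/
lemma exists_extension {R S F : Type*} [CommRing R] [CommRing S] [Field F] [IsAlgClosed F]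
    [Algebra R S] [FaithfulSMul R S] [Algebra.IsIntegral R S] (φ : R →+* F) :
    ∃ ψ : S →+* F, ψ.comp (algebraMap R S) = φ := by
  have hp : (RingHom.ker φ).IsPrime := RingHom.ker_isPrime φ
  obtain ⟨Q, -, hQ, hQp⟩ := Ideal.exists_ideal_over_prime_of_isIntegral (RingHom.ker φ) (⊥ : Ideal S)
    (by
      intro r hr
      have : r = 0 := FaithfulSMul.algebraMap_injective R S (by simpa using hr)
      simp [this])
  let _ : Algebra (R ⧸ RingHom.ker φ) F := (RingHom.kerLift φ).toAlgebra
  have : FaithfulSMul (R ⧸ RingHom.ker φ) F :=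
    (faithfulSMul_iff_algebraMap_injective _ _).2 (RingHom.kerLift_injective φ)
  let _ : Algebra (R ⧸ RingHom.ker φ) (S ⧸ Q) :=
    (Ideal.quotientMap Q (algebraMap R S) hQp.ge).toAlgebra
  have : FaithfulSMul (R ⧸ RingHom.ker φ) (S ⧸ Q) :=
    (faithfulSMul_iff_algebraMap_injective _ _).2
      (Ideal.quotientMap_injective' hQp.le)
  have : Algebra.IsIntegral (R ⧸ RingHom.ker φ) (S ⧸ Q) := by
    refine ⟨fun y => ?_⟩
    obtain ⟨y, rfl⟩ := Ideal.Quotient.mk_surjective y
    obtain ⟨g, hg, hg'⟩ := Algebra.IsIntegral.isIntegral (R := R) y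
    refine ⟨g.map (Ideal.Quotient.mk _), hg.map _, ?_⟩
    have := congr_arg (Ideal.Quotient.mk Q) hg'
    rw [hom_eval₂, map_zero] at this
    rw [eval₂_map]
    exact this
  have : Module.IsTorsionFree (R ⧸ RingHom.ker φ) (S ⧸ Q) :=
    Module.isTorsionFree_iff_faithfulSMul.2 inferInstance
  have : Module.IsTorsionFree (R ⧸ RingHom.ker φ) F :=
    Module.isTorsionFree_iff_faithfulSMul.2 inferInstance
  have : Algebra.IsAlgebraic (R ⧸ RingHom.ker φ) (S ⧸ Q) := Algebra.IsIntegral.isAlgebraic
  let g : (S ⧸ Q) →ₐ[R ⧸ RingHom.ker φ] F := IsAlgClosed.lift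
  refine ⟨g.toRingHom.comp (Ideal.Quotient.mk Q), RingHom.ext fun r => ?_⟩
  exact g.commutes (Ideal.Quotient.mk _ r)

variable {P A F : Type*} [CommRing P] [IsDomain P] [IsIntegrallyClosed P] [CommRing A]
  [IsDomain A] [Algebra P A] [FaithfulSMul P A] [Algebra.IsIntegral P A] [Field F] [IsAlgClosed F]

/-- Every root of the specialised minimal polynomial is a value of the element at a point above. -/
lemma exists_value (s : A) (φ : P →+* F) {r : F} (hr : r ∈ ((minpoly P s).map φ).roots) :
    ∃ ψ : A →+* F, ψ.comp (algebraMap P A) = φ ∧ ψ s = r := by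
  have hs : IsIntegral P s := Algebra.IsIntegral.isIntegral s
  have hroot : (minpoly P s).eval₂ φ r = 0 := by
    rw [← eval_map]; exact isRoot_of_mem_roots hr
  let S := Algebra.adjoin P ({s} : Set A)
  let χ : S →+* F := (AdjoinRoot.lift φ r hroot).comp (minpoly.equivAdjoin hs).symm.toRingEquiv.toRingHom
  have : FaithfulSMul S A := (faithfulSMul_iff_algebraMap_injective _ _).2 Subtype.val_injective
  have : Algebra.IsIntegral S A := ⟨fun a => (Algebra.IsIntegral.isIntegral (R := P) a).tower_top⟩
  obtain ⟨ψ, hψ⟩ := exists_extension (S := A) χ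
  refine ⟨ψ, RingHom.ext fun p => ?_, ?_⟩
  · have h := DFunLike.congr_fun hψ (algebraMap P S p)
    refine h.trans ?_
    change AdjoinRoot.lift φ r hroot ((minpoly.equivAdjoin hs).symm (algebraMap P S p)) = φ p
    rw [AlgEquiv.commutes, AdjoinRoot.algebraMap_eq, AdjoinRoot.lift_of]
  · have h := DFunLike.congr_fun hψ (⟨s, Algebra.self_mem_adjoin_singleton P s⟩ : S)
    refine h.trans ?_
    change AdjoinRoot.lift φ r hroot
      ((minpoly.equivAdjoin hs).symm ⟨s, Algebra.self_mem_adjoin_singleton P s⟩) = r
    have e : (minpoly.equivAdjoin hs) (AdjoinRoot.root _) =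
        ⟨s, Algebra.self_mem_adjoin_singleton P s⟩ := by
      ext; simp [minpoly.coe_equivAdjoin, AdjoinRoot.Minpoly.toAdjoin]
    rw [← e, AlgEquiv.symm_apply_apply, AdjoinRoot.lift_root]

variable (K L : Type*) [Field K] [Field L] [Algebra P K] [IsFractionRing P K] [Algebra A L]
  [IsFractionRing A L] [Algebra K L] [Algebra P L] [IsScalarTower P K L] [IsScalarTower P A L]
  [FiniteDimensional K L]

/-- The trace, specialised at `φ`, is a positive multiple of the sum of the roots. -/
lemma exists_trace (s : A) :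
    ∃ c : P, algebraMap P L c = algebraMap K L (Algebra.trace K L (algebraMap A L s)) ∧
      ∃ k : ℕ, 0 < k ∧ ∀ φ : P →+* F, φ c = k * ((minpoly P s).map φ).roots.sum := by
  have hs : IsIntegral P s := Algebra.IsIntegral.isIntegral s
  have hm : minpoly K (algebraMap A L s) = (minpoly P s).map (algebraMap P K) :=
    minpoly.isIntegrallyClosed_eq_field_fractions K L hs
  have hmon := minpoly.monic hs
  refine ⟨Module.finrank (IntermediateField.adjoin K {algebraMap A L s}) L *
      -(minpoly P s).nextCoeff, ?_,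
    Module.finrank (IntermediateField.adjoin K {algebraMap A L s}) L, Module.finrank_pos,
    fun φ => ?_⟩
  · rw [trace_eq_finrank_mul_minpoly_nextCoeff, hm,
      nextCoeff_map (IsFractionRing.injective P K), IsScalarTower.algebraMap_apply P K L]
    simp
  · rw [map_mul, map_natCast, map_neg,
      ← nextCoeff_map_eq_of_isUnit_leadingCoeff φ (by rw [hmon.leadingCoeff]; exact isUnit_one),
      (IsAlgClosed.splits _).nextCoeff_eq_neg_sum_roots_of_monic (hmon.map φ), neg_neg]

/-- If `s` vanishes at all points above `φ`, so does its trace. -/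
lemma trace_eq_zero_at {s : A} (φ : P →+* F) {c : P}
    (hc : algebraMap P L c = algebraMap K L (Algebra.trace K L (algebraMap A L s)))
    (h : ∀ ψ : A →+* F, ψ.comp (algebraMap P A) = φ → ψ s = 0) : φ c = 0 := by
  obtain ⟨c', hc', k, -, hk⟩ := exists_trace (P := P) (F := F) K L s
  have : c = c' := by
    refine IsFractionRing.injective P K ((algebraMap K L).injective ?_)
    rw [← IsScalarTower.algebraMap_apply P K L, ← IsScalarTower.algebraMap_apply P K L, hc, hc']
  subst this
  rw [hk φ, Multiset.sum_eq_zero fun r hr => ?_, mul_zero]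
  obtain ⟨ψ, hψ, hψr⟩ := exists_value s φ hr
  exact hψr ▸ h ψ hψ

/-- If `s` takes exactly the values `z ≠ 0` and possibly `0` above `φ`, its trace is nonzero. -/
lemma trace_ne_zero_at [CharZero F] {s : A} (φ : P →+* F) {c : P} {z : F} (hz : z ≠ 0)
    (hc : algebraMap P L c = algebraMap K L (Algebra.trace K L (algebraMap A L s)))
    (h : ∀ ψ : A →+* F, ψ.comp (algebraMap P A) = φ → ψ s = 0 ∨ ψ s = z)
    (hex : ∃ ψ : A →+* F, ψ.comp (algebraMap P A) = φ ∧ ψ s = z) : φ c ≠ 0 := by
  classical
  obtain ⟨c', hc', k, hk0, hk⟩ := exists_trace (P := P) (F := F) K L s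
  have : c = c' := by
    refine IsFractionRing.injective P K ((algebraMap K L).injective ?_)
    rw [← IsScalarTower.algebraMap_apply P K L, ← IsScalarTower.algebraMap_apply P K L, hc, hc']
  subst this
  have hs : IsIntegral P s := Algebra.IsIntegral.isIntegral s
  have hne : (minpoly P s).map φ ≠ 0 := ((minpoly.monic hs).map φ).ne_zero
  obtain ⟨ψ₀, hψ₀, hv⟩ := hex
  have hroot : z ∈ ((minpoly P s).map φ).roots := by
    rw [mem_roots hne, IsRoot, eval_map, ← hψ₀, ← hv, ← hom_eval₂, ← aeval_def, minpoly.aeval,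
      map_zero]
  have hsum : ∀ M : Multiset F, (∀ r ∈ M, r = 0 ∨ r = z) → M.sum = (M.count z : F) * z := by
    intro M
    induction M using Multiset.induction_on with
    | empty => simp
    | cons a M ih =>
      intro hM
      rw [Multiset.sum_cons, ih fun r hr => hM r (Multiset.mem_cons_of_mem hr)]
      rcases hM a (Multiset.mem_cons_self a M) with rfl | rfl
      · simp [Multiset.count_cons_of_ne hz]
      · simp [add_mul, add_comm]
  rw [hk φ, hsum _ fun r hr => by
    obtain ⟨ψ, hψ, hψr⟩ := exists_value s φ hr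
    exact hψr ▸ h ψ hψ]
  have : 0 < Multiset.count z ((minpoly P s).map φ).roots := Multiset.count_pos.2 hroot
  exact mul_ne_zero (Nat.cast_ne_zero.2 hk0.ne') (mul_ne_zero (Nat.cast_ne_zero.2 this.ne') hz)

end

end Vale.Agent.P266.Trace
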