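import Mathlib
import Vale.Agent.P266.Trace.Roots

/-!
Logarithmic vector fields along a prime divisor `π = 0` of affine space lift, after
multiplication by a unit at the prime, to the normalisation `A` of a finite cover; at a prime `p`
over `π` this bounds the pole order of `1 / det (v i (x l))` for any local generators `v` of the
derivation module.
-/

namespace Vale.Agent.P266.Trace

open MvPolynomial

noncomputable section

set_option linter.unusedSectionVars false

/-- Some partial derivative of a prime polynomial is not divisible by it. -/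
lemma exists_pderiv_not_dvd {n : ℕ} {π : MvPolynomial (Fin n) ℂ} (h : Prime π) :
    ∃ k, ¬ π ∣ pderiv k π := by
  classical
  by_contra! hall
  have hzero : ∀ k, pderiv k π = 0 := by
    intro k
    by_contra hk
    obtain ⟨c, hc⟩ := hall k
    have hc0 : c ≠ 0 := by rintro rfl; simp [hc] at hk
    have hX : (X k : MvPolynomial (Fin n) ℂ) ≠ 0 := X_ne_zero k
    have h1 : degreeOf k (X k * pderiv k π) ≤ degreeOf k π := by
      refine degreeOf_le_iff.2 fun m hm => ?_
      rw [mem_support_iff, coeff_X_mul'] at hm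
      split at hm
      · rename_i hmk
        rw [coeff_pderiv] at hm
        have hs : m - Finsupp.single k 1 + Finsupp.single k 1 = m := by
          ext i
          rcases eq_or_ne i k with rfl | hi
          · have := Finsupp.mem_support_iff.1 hmk
            simp; omega
          · simp [Finsupp.single_eq_of_ne hi]
        rw [hs] at hm
        exact degreeOf_le_iff.1 le_rfl m (mem_support_iff.2 (left_ne_zero_of_mul hm))
      · exact absurd rfl hm
    rw [hc, ← mul_assoc, mul_comm (X k : MvPolynomial (Fin n) ℂ) π, mul_assoc,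
      degreeOf_mul_eq h.ne_zero (mul_ne_zero hX hc0), degreeOf_mul_eq hX hc0, degreeOf_X] at h1
    simp at h1
  have hC : π = C (coeff 0 π) := by
    ext m
    rw [coeff_C]
    split
    · next hm => rw [← hm]
    · next hm =>
      have : ∃ i, m i ≠ 0 := by
        by_contra! h'
        exact hm (Finsupp.ext fun i => by simp [h' i])
      obtain ⟨i, hi⟩ := this
      have hs : m - Finsupp.single i 1 + Finsupp.single i 1 = m := by
        ext j
        rcases eq_or_ne j i with rfl | hj
        · simp; omega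
        · simp [Finsupp.single_eq_of_ne hj]
      have h0 := congr_arg (coeff (m - Finsupp.single i 1)) (hzero i)
      rw [coeff_pderiv, hs, coeff_zero, mul_eq_zero] at h0
      exact h0.resolve_right (Nat.cast_add_one_ne_zero _)
  rcases eq_or_ne (coeff 0 π) 0 with h0 | h0
  · exact h.ne_zero (by rw [hC, h0, C_0])
  · exact h.not_isUnit (hC ▸ (Ne.isUnit h0).map C)

variable {n : ℕ} {A L : Type*} [CommRing A] [IsDomain A] [IsIntegrallyClosed A] [Algebra ℂ A]
  [Algebra (MvPolynomial (Fin n) ℂ) A] [IsScalarTower ℂ (MvPolynomial (Fin n) ℂ) A]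
  [FaithfulSMul (MvPolynomial (Fin n) ℂ) A] [Module.Finite (MvPolynomial (Fin n) ℂ) A]
  [Field L] [Algebra A L] [IsFractionRing A L] [Algebra ℂ L] [IsScalarTower ℂ A L]

/-- The structure map. -/
abbrev up (A : Type*) [CommRing A] {n : ℕ} [Algebra (MvPolynomial (Fin n) ℂ) A] :
    MvPolynomial (Fin n) ℂ →+* A := algebraMap _ A

/-- The coordinates of the cover. -/
abbrev xc (A : Type*) [CommRing A] {n : ℕ} [Algebra (MvPolynomial (Fin n) ℂ) A] (l : Fin n) : A :=
  up A (X l)

/-- A derivation of `A` killing the coordinates is zero. -/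
lemma deriv_eq_zero (D : Derivation ℂ A A) (h : ∀ l : Fin n, D (xc A l) = 0) : D = 0 := by
  have hP : ∀ q : MvPolynomial (Fin n) ℂ, D (up A q) = 0 := by
    intro q
    induction q using MvPolynomial.induction_on with
    | C a =>
      rw [show up A (C a : MvPolynomial (Fin n) ℂ) = algebraMap ℂ A a from
        (IsScalarTower.algebraMap_apply ℂ (MvPolynomial (Fin n) ℂ) A a).symm]
      simp
    | add p q hp hq => simp [hp, hq]
    | mul_X p l hp => simp [hp, show D (up A (X l)) = 0 from h l]
  ext a
  have hint : IsIntegral (MvPolynomial (Fin n) ℂ) a := Algebra.IsIntegral.isIntegral a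
  let D' : Derivation (MvPolynomial (Fin n) ℂ) A A :=
    Derivation.mk'
      { toFun := D
        map_add' := D.map_add
        map_smul' := fun q b => by simp [Algebra.smul_def, hP] }
      fun b c => D.leibniz b c
  have h0 := D'.map_aeval (minpoly (MvPolynomial (Fin n) ℂ) a) a
  rw [minpoly.aeval, map_zero, eq_comm, smul_eq_mul, mul_eq_zero] at h0
  refine h0.resolve_left fun h1 => ?_
  have hd := minpoly.natDegree_pos hint
  have hne : Polynomial.derivative (minpoly (MvPolynomial (Fin n) ℂ) a) ≠ 0 := fun h2 => by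
    have := Polynomial.derivative_eq_zero.1 h2
    omega
  have := minpoly.IsIntegrallyClosed.degree_le_of_ne_zero hne h1
  exact absurd this (not_le.2 (Polynomial.degree_derivative_lt (minpoly.ne_zero hint)))

/-- The local ring of `A` at `p`, inside `L`. -/
abbrev loc (L : Type*) [Field L] [Algebra A L] [IsFractionRing A L] (p : Ideal A) [p.IsPrime] :
    Subalgebra A L :=
  Localization.subalgebra.ofField L p.primeCompl p.primeCompl_le_nonZeroDivisors

lemma mem_loc {p : Ideal A} [p.IsPrime] {z : L} :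
    z ∈ loc L p ↔ ∃ a s : A, s ∉ p ∧ z = algebraMap A L a * (algebraMap A L s)⁻¹ :=
  ⟨fun ⟨a, s, hs, h⟩ => ⟨a, s, hs, h⟩, fun ⟨a, s, hs, h⟩ => ⟨a, s, hs, h⟩⟩

lemma map_ne {p : Ideal A} {s : A} (hs : s ∉ p) : algebraMap A L s ≠ 0 :=
  (map_ne_zero_iff _ (IsFractionRing.injective A L)).2 fun h => hs (h ▸ p.zero_mem)

lemma inv_mem_loc {p : Ideal A} [p.IsPrime] {s : A} (hs : s ∉ p) :
    (algebraMap A L s)⁻¹ ∈ loc L p := mem_loc.2 ⟨1, s, hs, by simp⟩

/-- `t` is a uniformiser of `A` at `p`. -/
structure IsUnif (p : Ideal A) [p.IsPrime] (t : L) : Prop where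
  ne_zero : t ≠ 0
  div_mem : ∀ a ∈ p, t⁻¹ * algebraMap A L a ∈ loc L p
  num : ∃ a ∈ p, ∃ s ∉ p, t = algebraMap A L a * (algebraMap A L s)⁻¹
  factor : ∀ a : A, a ≠ 0 →
    ∃ k : ℕ, ∃ u ∈ loc L p, u⁻¹ ∈ loc L p ∧ algebraMap A L a = u * t ^ k

lemma exists_unif {π : MvPolynomial (Fin n) ℂ} (hπ : Prime π) {p : Ideal A} [p.IsPrime]
    (hp : ∀ q, up A q ∈ p ↔ π ∣ q) : ∃ t : L, IsUnif p t := by
  have : IsNoetherianRing A :=
    isNoetherianRing_iff.2 (isNoetherian_of_tower (MvPolynomial (Fin n) ℂ) inferInstance)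
  have : IsLocalRing (loc L p) := IsLocalization.AtPrime.isLocalRing _ p
  have : IsNoetherianRing (loc L p) :=
    IsLocalization.isNoetherianRing p.primeCompl _ inferInstance
  have : IsIntegrallyClosed (loc L p) :=
    isIntegrallyClosed_of_isLocalization (loc L p) p.primeCompl p.primeCompl_le_nonZeroDivisors
  have hpne : p ≠ ⊥ := fun h => hπ.ne_zero (by
    have h1 := (hp π).2 dvd_rfl
    rw [h, Ideal.mem_bot] at h1
    exact FaithfulSMul.algebraMap_injective (MvPolynomial (Fin n) ℂ) A (by simpa using h1))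
  have hmax := IsLocalization.AtPrime.under_maximalIdeal (loc L p) p
  have huniq : ∀ Q : Ideal (loc L p), Q ≠ ⊥ → Q.IsPrime →
      Q = IsLocalRing.maximalIdeal (loc L p) := by
    intro Q hQ hQp
    have h1 := (IsLocalization.isPrime_iff_isPrime_disjoint p.primeCompl (loc L p) Q).1 hQp
    have hle : Q.under A ≤ p := by
      intro a ha
      by_contra hap
      exact Set.disjoint_left.1 h1.2 hap ha
    have hne : Q.under A ≠ ⊥ := fun h0 => hQ (by
      rw [← IsLocalization.map_under p.primeCompl (loc L p) Q, h0, Ideal.map_bot])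
    have hc := Ideal.IsIntegral.comap_ne_bot (MvPolynomial (Fin n) ℂ) hne
    have hpQ : Q.under A = p := by
      by_contra hneq
      haveI := h1.1
      have hlt := Ideal.IsIntegral.comap_lt_comap (R := MvPolynomial (Fin n) ℂ)
        (lt_of_le_of_ne hle hneq)
      obtain ⟨q, hq, hq0⟩ := Submodule.exists_mem_ne_zero_of_ne_bot hc
      have hQpi : π ∈ (Q.under A).comap (algebraMap (MvPolynomial (Fin n) ℂ) A) := by
        haveI : ((Q.under A).comap (algebraMap (MvPolynomial (Fin n) ℂ) A)).IsPrime :=
          Ideal.comap_isPrime _ _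
        obtain ⟨f, hf⟩ := UniqueFactorizationMonoid.exists_prime_factors q hq0
        obtain ⟨w, hw⟩ := hf.2
        have hmem : f.prod ∈ (Q.under A).comap (algebraMap (MvPolynomial (Fin n) ℂ) A) :=
          ((Ideal.comap_isPrime _ _ : Ideal.IsPrime ((Q.under A).comap
            (algebraMap (MvPolynomial (Fin n) ℂ) A))).mem_or_mem (hw ▸ hq)).resolve_right
            (fun h => Ideal.IsPrime.ne_top' (Ideal.eq_top_of_isUnit_mem _ h w.isUnit))
        obtain ⟨σ, hσ, hσQ⟩ := (Ideal.IsPrime.multiset_prod_mem_iff_exists_mem inferInstance f).1 hmem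
        have : π ∣ σ := (hp σ).1 (hle hσQ)
        obtain ⟨u, hu⟩ := (hπ.irreducible.associated_of_dvd (hf.1 σ hσ).irreducible this).symm
        exact hu ▸ Ideal.mul_mem_right _ _ hσQ
      refine hlt.not_ge ?_
      intro r hr
      obtain ⟨c, rfl⟩ := (hp r).1 hr
      exact Ideal.mul_mem_right _ _ hQpi
    rw [← IsLocalization.map_under p.primeCompl (loc L p) Q, hpQ]
    exact (congr_arg (Ideal.map _) hmax.symm).trans (IsLocalization.map_under p.primeCompl _ _)
  have hnf : ¬ IsField (loc L p) := fun hf => by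
    have hb := IsLocalRing.isField_iff_maximalIdeal_eq.1 hf
    rw [hb] at hmax
    refine hpne (eq_bot_iff.2 fun a ha => ?_)
    rw [← hmax, Ideal.mem_comap, Ideal.mem_bot] at ha
    rw [Ideal.mem_bot]
    exact IsFractionRing.injective A L (by simpa using congr_arg Subtype.val ha)
  have hiff := (IsDiscreteValuationRing.TFAE (loc L p) hnf).out 0 3 rfl rfl
  have : IsDiscreteValuationRing (loc L p) := hiff.2 ⟨inferInstance,
      IsLocalRing.maximalIdeal (loc L p),
      ⟨fun h => hnf (IsLocalRing.isField_iff_maximalIdeal_eq.2 h), inferInstance⟩,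
      fun Q hQ => huniq Q hQ.1 hQ.2⟩
  obtain ⟨t, ht⟩ := IsDiscreteValuationRing.exists_irreducible (loc L p)
  have htm : t ∈ IsLocalRing.maximalIdeal (loc L p) := ht.not_isUnit
  have ht0 : (t : L) ≠ 0 := fun h => ht.ne_zero (Subtype.ext h)
  refine ⟨t, ht0, ?_, ?_, ?_⟩
  · intro a ha
    have : algebraMap A (loc L p) a ∈ IsLocalRing.maximalIdeal (loc L p) := by
      exact hmax.ge ha
    rw [Irreducible.maximalIdeal_eq ht, Ideal.mem_span_singleton] at this
    obtain ⟨w, hw⟩ := this
    have := congr_arg Subtype.val hw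
    simp only [Subalgebra.coe_algebraMap, Subalgebra.coe_mul] at this
    rw [this, inv_mul_cancel_left₀ ht0]
    exact w.2
  · obtain ⟨a, s, hs, h⟩ := mem_loc.1 t.2
    refine ⟨a, ?_, s, hs, h⟩
    by_contra ha
    refine htm (IsUnit.of_mul_eq_one (b := ⟨(t : L)⁻¹, ?_⟩) (Subtype.ext (mul_inv_cancel₀ ht0)))
    rw [h, mul_inv, inv_inv]
    exact mul_mem (inv_mem_loc ha) (Subalgebra.algebraMap_mem _ s)
  · intro a ha
    have ha' : algebraMap A (loc L p) a ≠ 0 := fun h => ha
      (IsFractionRing.injective A L (by simpa using congr_arg Subtype.val h))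
    obtain ⟨k, u, hu⟩ := IsDiscreteValuationRing.eq_unit_mul_pow_irreducible ha' ht
    refine ⟨k, (u : loc L p), SetLike.coe_mem _, ?_,
      by simpa using congr_arg Subtype.val hu⟩
    have h1 : ((u : loc L p) : L) * ((u⁻¹ : (loc L p)ˣ) : loc L p) = 1 :=
      congr_arg Subtype.val u.mul_inv
    rw [inv_eq_of_mul_eq_one_right h1]
    exact SetLike.coe_mem _

lemma IsUnif.mem {p : Ideal A} [p.IsPrime] {t : L} (h : IsUnif p t) : t ∈ loc L p := by
  obtain ⟨a, -, s, hs, rfl⟩ := h.num
  exact mem_loc.2 ⟨a, s, hs, rfl⟩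

lemma IsUnif.inv_not_mem {p : Ideal A} [p.IsPrime] {t : L} (h : IsUnif p t) :
    t⁻¹ ∉ loc L p := by
  obtain ⟨a, ha, s, hs, ht⟩ := h.num
  intro hinv
  obtain ⟨b, r, hr, hb⟩ := mem_loc.1 hinv
  have h1 : t * t⁻¹ = 1 := mul_inv_cancel₀ h.ne_zero
  rw [hb, ht] at h1
  field_simp [map_ne (L := L) hs, map_ne (L := L) hr] at h1
  rw [← map_mul, ← map_mul] at h1
  have hab : a * b = s * r := IsFractionRing.injective A L h1
  exact (Ideal.IsPrime.mem_or_mem inferInstance (hab ▸ p.mul_mem_right b ha)).elim hs hr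

lemma up_C (z : ℂ) : algebraMap A L (up A (C z : MvPolynomial (Fin n) ℂ)) = algebraMap ℂ L z := by
  rw [IsScalarTower.algebraMap_apply ℂ A L,
    IsScalarTower.algebraMap_apply ℂ (MvPolynomial (Fin n) ℂ) A, MvPolynomial.algebraMap_eq]

/-- If a derivation maps `A` into `c⁻¹ R`, it maps `R` there too. -/
lemma deriv_mem_of_base {p : Ideal A} [p.IsPrime] (δ : Derivation ℂ L L) {c : L}
    (h : ∀ a, c * δ (algebraMap A L a) ∈ loc L p) {z : L} (hz : z ∈ loc L p) :
    c * δ z ∈ loc L p := by
  obtain ⟨a, s, hs, rfl⟩ := mem_loc.1 hz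
  have he : c * δ (algebraMap A L a * (algebraMap A L s)⁻¹) =
      (algebraMap A L s)⁻¹ * (c * δ (algebraMap A L a)) -
      algebraMap A L a * (algebraMap A L s)⁻¹ * (algebraMap A L s)⁻¹ *
        (c * δ (algebraMap A L s)) := by
    rw [Derivation.leibniz, Derivation.leibniz_inv]
    simp only [smul_eq_mul]
    have := map_ne (L := L) hs
    field_simp
    ring
  rw [he]
  exact sub_mem (mul_mem (inv_mem_loc hs) (h a)) (mul_mem (mul_mem (mul_mem
    (Subalgebra.algebraMap_mem _ a) (inv_mem_loc hs)) (inv_mem_loc hs)) (h s))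

/-- `δ (h a) - h' a * δ a` is small when `δ` is small on polynomials. -/
lemma deriv_aeval_mem {p : Ideal A} [p.IsPrime] (δ : Derivation ℂ L L) {c : L}
    (hP : ∀ q : MvPolynomial (Fin n) ℂ, c * δ (algebraMap A L (up A q)) ∈ loc L p) (a : A)
    (h : Polynomial (MvPolynomial (Fin n) ℂ)) :
    c * δ (algebraMap A L (Polynomial.aeval a h)) -
      algebraMap A L (Polynomial.aeval a h.derivative) * (c * δ (algebraMap A L a)) ∈ loc L p := by
  induction h using Polynomial.induction_on' with
  | add f g hf hg =>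
    convert add_mem hf hg using 1
    simp; ring
  | monomial m q =>
    convert mul_mem (Subalgebra.algebraMap_mem (loc L p) (a ^ m)) (hP q) using 1
    rw [Polynomial.aeval_monomial, Polynomial.derivative_monomial, Polynomial.aeval_monomial,
      map_mul (algebraMap A L), Derivation.leibniz, map_pow (algebraMap A L), Derivation.leibniz_pow]
    simp only [map_mul, map_pow, map_natCast, smul_eq_mul, nsmul_eq_mul]
    ring

section step

variable {π : MvPolynomial (Fin n) ℂ} (hπ : Prime π) {p : Ideal A} [p.IsPrime]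
  (hp : ∀ q, up A q ∈ p ↔ π ∣ q) {t : L} (ht : IsUnif p t)

include hπ hp ht

/-- A derivation of the local ring which is small on `P` and logarithmic along `π` is small. -/
lemma step (δ : Derivation ℂ L L) (hA : ∀ a, δ (algebraMap A L a) ∈ loc L p)
    (hP : ∀ q : MvPolynomial (Fin n) ℂ, t⁻¹ * δ (algebraMap A L (up A q)) ∈ loc L p)
    (hlog : ∃ w ∈ loc L p, δ (algebraMap A L (up A π)) = algebraMap A L (up A π) * w) :
    ∀ a, t⁻¹ * δ (algebraMap A L a) ∈ loc L p := by
  classical
  have hR : ∀ z ∈ loc L p, δ z ∈ loc L p := fun z hz => by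
    simpa using deriv_mem_of_base δ (c := 1) (by simpa using hA) hz
  have hπp : up A π ∈ p := (hp π).2 dvd_rfl
  have hπ0 : up A π ≠ 0 :=
    (map_ne_zero_iff _ (FaithfulSMul.algebraMap_injective _ _)).2 hπ.ne_zero
  obtain ⟨k, u, hu, hu', he⟩ := ht.factor _ hπ0
  have hu0 : u ≠ 0 := fun h => by
    rw [h, zero_mul] at he
    exact hπ0 (IsFractionRing.injective A L (by simpa using he))
  have hk : k ≠ 0 := by
    rintro rfl
    refine ht.inv_not_mem ?_
    have h1 := mul_mem hu' (ht.div_mem _ hπp)
    rwa [he, pow_zero, mul_one, mul_comm t⁻¹, ← mul_assoc, inv_mul_cancel₀ hu0, one_mul] at h1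
  have hδt : t⁻¹ * δ t ∈ loc L p := by
    obtain ⟨w, hw, hδπ⟩ := hlog
    have h2 : t⁻¹ * δ t = algebraMap ℂ L (k : ℂ)⁻¹ * (w - u⁻¹ * δ u) := by
      rw [he, Derivation.leibniz, Derivation.leibniz_pow] at hδπ
      simp only [smul_eq_mul, nsmul_eq_mul] at hδπ
      have hkC : (k : L) ≠ 0 := by
        rw [← map_natCast (algebraMap ℂ L) k, map_ne_zero]
        exact_mod_cast hk
      rw [map_inv₀, map_natCast]
      have htk : t ^ k = t ^ (k - 1) * t := by rw [← pow_succ, Nat.sub_add_cancel (Nat.one_le_iff_ne_zero.2 hk)]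
      rw [htk] at hδπ
      have := pow_ne_zero (k - 1) ht.ne_zero
      have := ht.ne_zero
      field_simp
      apply mul_left_cancel₀ (pow_ne_zero (k - 1) ht.ne_zero)
      linear_combination hδπ
    rw [h2]
    refine mul_mem ?_ (sub_mem hw (mul_mem hu' (hR u hu)))
    rw [IsScalarTower.algebraMap_apply ℂ A L]
    exact Subalgebra.algebraMap_mem _ _
  intro a
  let S : Ideal (MvPolynomial (Fin n) ℂ) := Ideal.span {π}
  have : S.IsPrime := (Ideal.span_singleton_prime hπ.ne_zero).2 hπ
  have : CharZero (MvPolynomial (Fin n) ℂ ⧸ S) :=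
    charZero_of_injective_algebraMap (algebraMap ℂ _).injective
  let mk := Ideal.Quotient.mk S
  have hex : ∃ d : ℕ, ∃ h : Polynomial (MvPolynomial (Fin n) ℂ),
      h.map mk ≠ 0 ∧ Polynomial.aeval a h ∈ p ∧ (h.map mk).natDegree = d := by
    refine ⟨_, minpoly (MvPolynomial (Fin n) ℂ) a, ?_, ?_, rfl⟩
    · exact ((minpoly.monic (Algebra.IsIntegral.isIntegral a)).map mk).ne_zero
    · rw [minpoly.aeval]; exact p.zero_mem
  obtain ⟨h, hne, hmem, hdeg⟩ := Nat.find_spec hex
  have hd0 : (h.map mk).natDegree ≠ 0 := by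
    intro hd
    have h0 := Polynomial.eq_C_of_natDegree_eq_zero hd
    have hsum : Polynomial.aeval a h - up A (h.coeff 0) ∈ p := by
      have hdiv : ∀ m : ℕ, m ≠ 0 → π ∣ h.coeff m := fun m hm => by
        have := congr_arg (Polynomial.coeff · m) h0
        simp only [Polynomial.coeff_map, Polynomial.coeff_C, if_neg hm] at this
        exact Ideal.mem_span_singleton.1 (Ideal.Quotient.eq_zero_iff_mem.1 this)
      rw [Polynomial.aeval_eq_sum_range, Finset.sum_range_succ']
      simp only [pow_zero, Algebra.smul_def, mul_one, add_sub_cancel_right]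
      exact Ideal.sum_mem _ fun m _ =>
        Ideal.mul_mem_right _ _ ((hp _).2 (hdiv (m + 1) (Nat.succ_ne_zero m)))
    have : up A (h.coeff 0) ∈ p := by simpa using p.sub_mem hmem hsum
    refine hne ?_
    rw [h0, Polynomial.coeff_map, Ideal.Quotient.eq_zero_iff_mem.2
      (Ideal.mem_span_singleton.2 ((hp _).1 this)), map_zero]
  have hder : Polynomial.aeval a h.derivative ∉ p := by
    intro hm
    have hne' : h.derivative.map mk ≠ 0 := by
      rw [← Polynomial.derivative_map]
      exact fun h0 => hd0 (Polynomial.derivative_eq_zero.1 h0)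
    have hle := Nat.find_min' hex ⟨_, hne', hm, rfl⟩
    rw [← hdeg, ← Polynomial.derivative_map] at hle
    exact absurd hle (not_le.2 (Polynomial.natDegree_derivative_lt hd0))
  have h1 := deriv_aeval_mem δ hP a h
  have h2 : t⁻¹ * δ (algebraMap A L (Polynomial.aeval a h)) ∈ loc L p := by
    have hw := ht.div_mem _ hmem
    have e : t⁻¹ * δ (algebraMap A L (Polynomial.aeval a h)) =
        (t⁻¹ * algebraMap A L (Polynomial.aeval a h)) * (t⁻¹ * δ t) +
          δ (t⁻¹ * algebraMap A L (Polynomial.aeval a h)) := by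
      conv_lhs => rw [← mul_inv_cancel_left₀ ht.ne_zero (algebraMap A L (Polynomial.aeval a h))]
      rw [Derivation.leibniz]
      simp only [smul_eq_mul]
      have := ht.ne_zero
      field_simp
      ring
    rw [e]
    exact add_mem (mul_mem hw hδt) (hR _ hw)
  have h3 := mul_mem (inv_mem_loc (L := L) hder) (sub_mem h2 h1)
  rwa [sub_sub_cancel, inv_mul_cancel_left₀ (map_ne hder)] at h3

/-- A derivation with bounded poles, regular on `P` and logarithmic along `π`, is regular. -/
lemma descend (δ : Derivation ℂ L L) (hP : ∀ q : MvPolynomial (Fin n) ℂ,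
      δ (algebraMap A L (up A q)) ∈ loc L p)
    (hlog : ∃ w ∈ loc L p, δ (algebraMap A L (up A π)) = algebraMap A L (up A π) * w) :
    ∀ N : ℕ, (∀ a, t ^ N * δ (algebraMap A L a) ∈ loc L p) →
      ∀ a, δ (algebraMap A L a) ∈ loc L p := by
  intro N
  induction N with
  | zero => intro h a; simpa using h a
  | succ N ih =>
    intro h
    refine ih fun a => ?_
    obtain ⟨w, hw, hδπ⟩ := hlog
    have := step hπ hp ht (t ^ (N + 1) • δ)
      (fun b => by simpa [Derivation.smul_apply] using h b)
      (fun q => by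
        have h1 := mul_mem (pow_mem ht.mem N) (hP q)
        simpa [Derivation.smul_apply, pow_succ', mul_assoc, inv_mul_cancel_left₀ ht.ne_zero]
          using h1)
      ⟨t ^ (N + 1) * w, mul_mem (pow_mem ht.mem _) hw, by
        rw [Derivation.smul_apply, hδπ, smul_eq_mul]; ring⟩ a
    simpa [Derivation.smul_apply, pow_succ', mul_assoc, inv_mul_cancel_left₀ ht.ne_zero] using this

end step

/-- A common denominator for a derivation on a finitely generated algebra. -/
lemma exists_clear [Algebra.FiniteType ℂ A] (δ : Derivation ℂ L L) (W : Submonoid A)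
    (h : ∀ a : A, ∃ w ∈ W, ∃ b : A, algebraMap A L w * δ (algebraMap A L a) = algebraMap A L b) :
    ∃ w ∈ W, ∀ a : A, ∃ b : A, algebraMap A L w * δ (algebraMap A L a) = algebraMap A L b := by
  classical
  obtain ⟨G, hG⟩ := (inferInstance : Algebra.FiniteType ℂ A).out
  choose w hw b hb using h
  refine ⟨∏ g ∈ G, w g, prod_mem fun g _ => hw g, fun a => ?_⟩
  have ha : a ∈ Algebra.adjoin ℂ (G : Set A) := hG ▸ trivial
  induction ha using Algebra.adjoin_induction with
  | mem g hg =>
    refine ⟨(∏ g' ∈ G.erase g, w g') * b g, ?_⟩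
    rw [← Finset.mul_prod_erase G w (Finset.mem_coe.1 hg), map_mul, map_mul, ← hb g]
    ring
  | algebraMap r => exact ⟨0, by rw [← IsScalarTower.algebraMap_apply]; simp⟩
  | add x y _ _ hx hy =>
    obtain ⟨bx, hbx⟩ := hx
    obtain ⟨bz, hbz⟩ := hy
    exact ⟨bx + bz, by rw [map_add, map_add, mul_add, hbx, hbz, map_add]⟩
  | mul x y _ _ hx hy =>
    obtain ⟨bx, hbx⟩ := hx
    obtain ⟨bz, hbz⟩ := hy
    refine ⟨x * bz + y * bx, ?_⟩
    rw [map_mul, Derivation.leibniz, smul_eq_mul, smul_eq_mul, map_add, map_mul, map_mul, ← hbx,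
      ← hbz]
    ring

/-- A derivation of `L` regular at `p` is, up to a unit at `p`, a derivation of `A`. -/
lemma exists_global {p : Ideal A} [p.IsPrime] (δ : Derivation ℂ L L)
    [Algebra.FiniteType ℂ A] (h : ∀ a, δ (algebraMap A L a) ∈ loc L p) :
    ∃ u ∉ p, ∃ D : Derivation ℂ A A,
      ∀ a, algebraMap A L (D a) = algebraMap A L u * δ (algebraMap A L a) := by
  obtain ⟨u, hu, hb⟩ := exists_clear δ p.primeCompl fun a => by
    obtain ⟨b, s, hs, hbs⟩ := mem_loc.1 (h a)
    refine ⟨s, hs, b, ?_⟩
    rw [hbs, mul_comm, inv_mul_cancel_right₀ (map_ne hs)]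
  choose f hf using hb
  have inj := IsFractionRing.injective A L
  have key : ∀ a, algebraMap A L (f a) = algebraMap A L u * δ (algebraMap A L a) :=
    fun a => (hf a).symm
  refine ⟨u, hu, Derivation.mk'
    { toFun := f
      map_add' := fun a b => inj (by simp [key, mul_add])
      map_smul' := fun z a => inj (by
        rw [RingHom.id_apply, Algebra.smul_def, Algebra.smul_def, map_mul, key, key, map_mul,
          ← IsScalarTower.algebraMap_apply, Derivation.leibniz, Derivation.map_algebraMap]
        simp only [smul_eq_mul]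
        ring) }
    (fun a b => inj (by
      simp only [LinearMap.coe_mk, AddHom.coe_mk, smul_eq_mul]
      simp only [map_add, key, map_mul (algebraMap A L)]
      rw [Derivation.leibniz]
      simp only [smul_eq_mul]
      ring)), key⟩

/-- The determinant of the logarithmic frame along a divisor. -/
lemma det_frame {R : Type*} [CommRing R] (k : Fin n) (c d : Fin n → R) (y : R) :
    Matrix.det (Matrix.of fun j l => if j = k then (if l = k then y else 0)
      else ((if l = j then c j else 0) - (if l = k then d j else 0))) =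
      (∏ j ∈ Finset.univ.erase k, c j) * y := by
  classical
  rw [Matrix.det_apply, Finset.sum_eq_single 1]
  · simp only [Equiv.Perm.sign_one, one_smul, Equiv.Perm.one_apply]
    rw [← Finset.prod_erase_mul _ _ (Finset.mem_univ k)]
    congr 1
    · exact Finset.prod_congr rfl fun j hj => by simp [(Finset.mem_erase.1 hj).1]
    · simp
  · intro σ _ hσ
    obtain ⟨i, hik, hi⟩ : ∃ i, i ≠ k ∧ σ i ≠ i := by
      by_contra! hcon
      refine hσ (Equiv.ext fun i => ?_)
      rcases eq_or_ne i k with rfl | hi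
      · by_contra hh
        rw [Equiv.Perm.one_apply] at hh
        exact hh (σ.injective (hcon _ hh))
      · exact hcon i hi
    refine smul_eq_zero_of_right _ (Finset.prod_eq_zero (Finset.mem_univ i) ?_)
    simp [hik, Ne.symm hi]
  · simp

/-- The derivative of a coordinate. -/
lemma pderiv_X_eq (j l : Fin n) :
    algebraMap A L (up A (pderiv j (X l : MvPolynomial (Fin n) ℂ))) = if l = j then 1 else 0 := by
  rw [pderiv_X, Pi.single_apply, apply_ite (up A), apply_ite (algebraMap A L)]
  simp [eq_comm]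

/-- Key local bound. -/
theorem local_bound {π : MvPolynomial (Fin n) ℂ} (hπ : Prime π) {p : Ideal A} [p.IsPrime]
    (hp : ∀ q, up A q ∈ p ↔ π ∣ q) (dd : Fin n → Derivation ℂ L L)
    (hdd : ∀ j q, dd j (algebraMap A L (up A q)) = algebraMap A L (up A (pderiv j q)))
    (v : Fin n → Derivation ℂ A A) {s0 : A} (hs0 : s0 ≠ 0)
    (hgen : ∀ D : Derivation ℂ A A, ∃ c : Fin n → A, ∀ a, s0 * D a = ∑ i, c i * v i a) :
    Matrix.det (Matrix.of fun i l => v i (xc A l)) ≠ 0 ∧
    ∃ b ∈ p, ∃ s ∉ p,
      up A π * s0 ^ n * s = b * Matrix.det (Matrix.of fun i l => v i (xc A l)) := by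
  classical
  have : Algebra.FiniteType ℂ A :=
    Algebra.FiniteType.trans (S := MvPolynomial (Fin n) ℂ) inferInstance inferInstance
  obtain ⟨t, ht⟩ := exists_unif (L := L) hπ hp
  obtain ⟨k, hk⟩ := exists_pderiv_not_dvd hπ
  have hπ0 : algebraMap A L (up A π) ≠ 0 := (map_ne_zero_iff _ (IsFractionRing.injective A L)).2
    ((map_ne_zero_iff _ (FaithfulSMul.algebraMap_injective _ _)).2 hπ.ne_zero)
  have hpk : up A (pderiv k π) ∉ p := fun h => hk ((hp _).1 h)
  let c : MvPolynomial (Fin n) ℂ → L := fun q => algebraMap A L (up A q)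
  -- the logarithmic fields
  let δ : Fin n → Derivation ℂ L L := fun j =>
    if j = k then c π • dd k else c (pderiv k π) • dd j - c (pderiv j π) • dd k
  have hreg : ∀ j a, δ j (algebraMap A L a) ∈ loc L p := by
    intro j
    obtain ⟨d, hd, hdb⟩ := exists_clear (δ j) (nonZeroDivisors A) fun a => by
      obtain ⟨b, s, hs, hbs⟩ := IsFractionRing.div_surjective A (δ j (algebraMap A L a))
      refine ⟨s, hs, b, ?_⟩
      rw [← hbs, mul_div_cancel₀]
      exact IsFractionRing.to_map_ne_zero_of_mem_nonZeroDivisors hs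
    obtain ⟨N, u, hu, hu', hdu⟩ := ht.factor d (nonZeroDivisors.ne_zero hd)
    refine descend hπ hp ht (δ j) (fun q => ?_) ?_ N fun a => ?_
    · simp only [δ, c]
      split <;>
        simp only [Derivation.smul_apply, Derivation.sub_apply, hdd, smul_eq_mul, ← map_mul,
          ← map_sub] <;> exact Subalgebra.algebraMap_mem _ _
    · rcases eq_or_ne j k with rfl | hj
      · exact ⟨c (pderiv j π), Subalgebra.algebraMap_mem _ _, by simp [δ, c, hdd, -algebraMap_smul]⟩
      · exact ⟨0, zero_mem _, by simp [δ, c, hj, hdd, -algebraMap_smul]; ring⟩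
    · obtain ⟨b, hb⟩ := hdb a
      have : t ^ N * δ j (algebraMap A L a) = u⁻¹ * algebraMap A L b := by
        rw [← hb, hdu]
        have : u ≠ 0 := fun h0 => by
          rw [h0, zero_mul] at hdu
          exact nonZeroDivisors.ne_zero hd (IsFractionRing.injective A L (by simpa using hdu))
        field_simp
      rw [this]
      exact mul_mem hu' (Subalgebra.algebraMap_mem _ _)
  let ε : Fin n → Derivation ℂ L L := fun j => if j = k then t⁻¹ • δ k else δ j
  have hε : ∀ j a, ε j (algebraMap A L a) ∈ loc L p := by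
    intro j a
    rcases eq_or_ne j k with rfl | hj
    · have h := step hπ hp ht (δ j) (hreg j) (fun q => ?_)
        ⟨c (pderiv j π), Subalgebra.algebraMap_mem _ _, by simp [δ, c, hdd, -algebraMap_smul]⟩ a
      · simpa [ε, Derivation.smul_apply] using h
      · simp only [δ, if_true, Derivation.smul_apply, hdd, smul_eq_mul, c, ← mul_assoc]
        exact mul_mem (ht.div_mem _ ((hp π).2 dvd_rfl)) (Subalgebra.algebraMap_mem _ _)
    · simpa [ε, hj] using hreg j a
  choose u hu D hD using fun j => exists_global (ε j) (hε j)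
  choose C' hC using fun j => hgen (D j)
  let M : Matrix (Fin n) (Fin n) A := Matrix.of fun i l => v i (xc A l)
  let C₀ : Matrix (Fin n) (Fin n) A := Matrix.of C'
  let W : Matrix (Fin n) (Fin n) L := Matrix.of fun j l =>
    if j = k then (if l = k then t⁻¹ * c π else 0)
      else ((if l = j then c (pderiv k π) else 0) - (if l = k then c (pderiv j π) else 0))
  have hW : ∀ j l, ε j (algebraMap A L (xc A l)) = W j l := by
    intro j l
    rcases eq_or_ne j k with rfl | hj
    · simp [ε, δ, W, c, hdd, pderiv_X_eq, -pderiv_X, -algebraMap_smul]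
    · simp [ε, δ, W, c, hdd, pderiv_X_eq, hj, -pderiv_X, -algebraMap_smul]
  have hmat : (C₀ * M).map (algebraMap A L) =
      Matrix.of fun j l => algebraMap A L (s0 * u j) * W j l := by
    ext j l
    rw [Matrix.map_apply, Matrix.of_apply, Matrix.mul_apply]
    have := hC j (xc A l)
    simp only [C₀, M, Matrix.of_apply]
    rw [← this, map_mul, hD, hW, map_mul, mul_assoc]
  have hdet := congr_arg Matrix.det hmat
  rw [← RingHom.mapMatrix_apply, ← RingHom.map_det, Matrix.det_mul,
    Matrix.det_mul_column (fun j => algebraMap A L (s0 * u j)) W, det_frame,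
    Finset.prod_const, Finset.card_erase_of_mem (Finset.mem_univ k), Finset.card_univ,
    Fintype.card_fin, ← map_prod, Finset.prod_mul_distrib, Finset.prod_const, Finset.card_univ,
    Fintype.card_fin] at hdet
  obtain ⟨a0, ha0, s1, hs1, ht1⟩ := ht.num
  let U : A := (∏ j, u j) * up A (pderiv k π) ^ (n - 1)
  have hU : U ∉ p := fun h => by
    rcases Ideal.IsPrime.mem_or_mem inferInstance h with h | h
    · obtain ⟨j, -, hj⟩ := Ideal.IsPrime.prod_mem_iff.1 h
      exact hu j hj
    · exact hpk (Ideal.IsPrime.mem_of_pow_mem inferInstance _ h)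
  have key : a0 * C₀.det * M.det = s1 * (up A π * s0 ^ n * U) := by
    refine IsFractionRing.injective A L ?_
    have h1 : algebraMap A L s1 * t = algebraMap A L a0 := by
      rw [ht1, mul_comm, inv_mul_cancel_right₀ (map_ne hs1)]
    rw [mul_assoc a0, map_mul, hdet]
    simp only [c, U, map_mul, map_pow]
    rw [← h1]
    have := ht.ne_zero
    field_simp
  have hne : s1 * (up A π * s0 ^ n * U) ≠ 0 := by
    refine mul_ne_zero (fun h => hs1 (h ▸ p.zero_mem)) (mul_ne_zero (mul_ne_zero ?_
      (pow_ne_zero _ hs0)) fun h => hU (h ▸ p.zero_mem))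
    exact (map_ne_zero_iff _ (FaithfulSMul.algebraMap_injective _ _)).2 hπ.ne_zero
  refine ⟨fun hM => hne (by rw [← key, show M.det = 0 from hM, mul_zero]), a0 * C₀.det,
    p.mul_mem_right _ ha0, s1 * U, fun h => (Ideal.IsPrime.mem_or_mem inferInstance h).elim hs1 hU,
    ?_⟩
  change _ = _ * M.det
  rw [key]
  ring

end

end Vale.Agent.P266.Trace
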