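import Mathlib
import Vale.Agent.P266.Trace.Local

/-!
The trace criterion: for local generators `v 1, …, v n` of the module of vector fields at a
closed point `m` over the origin of a finite map to affine space, `det (v i (x l))` does not lie in
the parameter ideal of `A_m`.
-/

namespace Vale.Agent.P266.Trace

open MvPolynomial

noncomputable section

set_option linter.unusedSectionVars false

variable {n : ℕ} {A : Type*} [CommRing A] [IsDomain A] [IsIntegrallyClosed A] [Algebra ℂ A]
  [Algebra (MvPolynomial (Fin n) ℂ) A] [IsScalarTower ℂ (MvPolynomial (Fin n) ℂ) A]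
  [FaithfulSMul (MvPolynomial (Fin n) ℂ) A] [Module.Finite (MvPolynomial (Fin n) ℂ) A]


section Trace

variable (K L : Type*) [Field K] [Field L] [Algebra (MvPolynomial (Fin n) ℂ) K] [IsFractionRing (MvPolynomial (Fin n) ℂ) K] [Algebra A L]
  [IsFractionRing A L] [Algebra K L] [Algebra (MvPolynomial (Fin n) ℂ) L] [IsScalarTower (MvPolynomial (Fin n) ℂ) K L] [IsScalarTower (MvPolynomial (Fin n) ℂ) A L]
  [FiniteDimensional K L]

/-- An element with at most the poles of the inverse different has integral trace. -/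
lemma trace_mem (y : L)
    (hy : ∀ π : (MvPolynomial (Fin n) ℂ), Prime π → ∀ p : Ideal A, p.IsPrime → (∀ q, up A q ∈ p ↔ π ∣ q) →
      ∃ b ∈ p, ∃ s ∉ p, algebraMap A L (up A π) * y * algebraMap A L s = algebraMap A L b) :
    ∃ q : (MvPolynomial (Fin n) ℂ), algebraMap (MvPolynomial (Fin n) ℂ) K q = Algebra.trace K L y := by
  set z := Algebra.trace K L y with hz
  have hloc : ∀ π : (MvPolynomial (Fin n) ℂ), Prime π →
      ∃ u : (MvPolynomial (Fin n) ℂ), ¬ π ∣ u ∧ ∃ c : (MvPolynomial (Fin n) ℂ), algebraMap (MvPolynomial (Fin n) ℂ) K c = algebraMap (MvPolynomial (Fin n) ℂ) K u * z := by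
    intro π hπ
    let I : Ideal A :=
      { carrier := {w | ∃ b : A, algebraMap A L (up A π) * y * algebraMap A L w = algebraMap A L b}
        add_mem' := fun ⟨b, hb⟩ ⟨b', hb'⟩ => ⟨b + b', by rw [map_add, map_add, mul_add, hb, hb']⟩
        zero_mem' := ⟨0, by simp⟩
        smul_mem' := fun r w ⟨b, hb⟩ => ⟨r * b, by
          rw [smul_eq_mul, map_mul, map_mul, ← hb]; ring⟩ }
    have hπ' : (Ideal.span {π}).IsPrime := (Ideal.span_singleton_prime hπ.ne_zero).2 hπ
    obtain ⟨u, huI, hu⟩ : ∃ u : (MvPolynomial (Fin n) ℂ), up A u ∈ I ∧ ¬ π ∣ u := by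
      by_contra! hall
      obtain ⟨Q, hIQ, hQ, hQπ⟩ := Ideal.exists_ideal_over_prime_of_isIntegral (Ideal.span {π}) I
        (fun u hu => Ideal.mem_span_singleton.2 (hall u hu))
      obtain ⟨b, -, s, hs, hb⟩ := hy π hπ Q hQ fun q => by
        rw [← Ideal.mem_span_singleton, ← hQπ]; rfl
      exact hs (hIQ ⟨b, hb⟩)
    refine ⟨u, hu, ?_⟩
    obtain ⟨b, hb⟩ := huI
    have hbp : ∀ p : Ideal A, p.IsPrime → (∀ q, up A q ∈ p ↔ π ∣ q) → b ∈ p := by
      intro p hp hpπ
      obtain ⟨b', hb', s, hs, hbs⟩ := hy π hπ p hp hpπ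
      have : b * s = up A u * b' := by
        refine IsFractionRing.injective A L ?_
        rw [map_mul, map_mul, ← hb, ← hbs]; ring
      exact (hp.mem_or_mem (this ▸ p.mul_mem_left _ hb')).resolve_right hs
    let F := AlgebraicClosure (FractionRing ((MvPolynomial (Fin n) ℂ) ⧸ Ideal.span {π}))
    let φ : (MvPolynomial (Fin n) ℂ) →+* F := ((algebraMap (FractionRing ((MvPolynomial (Fin n) ℂ) ⧸ Ideal.span {π})) F).comp
      (algebraMap ((MvPolynomial (Fin n) ℂ) ⧸ Ideal.span {π}) (FractionRing ((MvPolynomial (Fin n) ℂ) ⧸ Ideal.span {π})))).comp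
      (Ideal.Quotient.mk _)
    have hφ : ∀ q : (MvPolynomial (Fin n) ℂ), φ q = 0 ↔ π ∣ q := by
      intro q
      change algebraMap (FractionRing ((MvPolynomial (Fin n) ℂ) ⧸ Ideal.span {π})) F
        (algebraMap ((MvPolynomial (Fin n) ℂ) ⧸ Ideal.span {π}) _ (Ideal.Quotient.mk _ q)) = 0 ↔ _
      rw [map_eq_zero_iff _ (algebraMap (FractionRing ((MvPolynomial (Fin n) ℂ) ⧸ Ideal.span {π})) F).injective,
        map_eq_zero_iff _ (IsFractionRing.injective _ _), Ideal.Quotient.eq_zero_iff_mem,
        Ideal.mem_span_singleton]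
    obtain ⟨c, hc, -⟩ := exists_trace (P := (MvPolynomial (Fin n) ℂ)) (F := F) K L b
    have hc0 : φ c = 0 := trace_eq_zero_at K L φ hc fun ψ hψ => by
      refine RingHom.mem_ker.1 (hbp (RingHom.ker ψ) (RingHom.ker_isPrime ψ) fun q => ?_)
      rw [RingHom.mem_ker, ← hφ, ← hψ]; rfl
    obtain ⟨c', rfl⟩ := (hφ c).1 hc0
    refine ⟨c', ?_⟩
    have hb' : algebraMap A L b = (algebraMap (MvPolynomial (Fin n) ℂ) K (π * u)) • y := by
      rw [← hb, Algebra.smul_def, ← IsScalarTower.algebraMap_apply (MvPolynomial (Fin n) ℂ) K L,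
        IsScalarTower.algebraMap_apply (MvPolynomial (Fin n) ℂ) A L, map_mul, map_mul]
      ring
    rw [hb', map_smul, ← hz, smul_eq_mul, IsScalarTower.algebraMap_apply (MvPolynomial (Fin n) ℂ) K L] at hc
    have h1 := (algebraMap K L).injective hc
    rw [map_mul, map_mul, mul_assoc] at h1
    exact mul_left_cancel₀ ((map_ne_zero_iff _ (IsFractionRing.injective (MvPolynomial (Fin n) ℂ) K)).2 hπ.ne_zero) h1
  obtain ⟨a, b, hab, hz'⟩ := IsFractionRing.exists_reduced_fraction (A := (MvPolynomial (Fin n) ℂ)) z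
  rw [IsFractionRing.mk'_eq_div] at hz'
  have hb0 : algebraMap (MvPolynomial (Fin n) ℂ) K b ≠ 0 := IsFractionRing.to_map_ne_zero_of_mem_nonZeroDivisors b.2
  have hb : IsUnit (b : (MvPolynomial (Fin n) ℂ)) := by
    by_contra hb
    obtain ⟨π, hπ, hπb⟩ :=
      WfDvdMonoid.exists_irreducible_factor hb (nonZeroDivisors.ne_zero b.2)
    obtain ⟨u, hu, c, hc⟩ := hloc π hπ.prime
    have h1 : c * b = u * a := by
      refine IsFractionRing.injective (MvPolynomial (Fin n) ℂ) K ?_
      rw [map_mul, map_mul, hc, ← hz', mul_assoc, div_mul_cancel₀ _ hb0]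
    have h2 : π ∣ u * a := h1 ▸ dvd_mul_of_dvd_right hπb c
    exact hπ.not_isUnit (hab ((hπ.prime.dvd_or_dvd h2).resolve_left hu) hπb)
  obtain ⟨b', hb'⟩ := hb.exists_right_inv
  refine ⟨a * b', ?_⟩
  rw [← hz', map_mul, eq_div_iff hb0, mul_assoc, ← map_mul, mul_comm b' (b : (MvPolynomial (Fin n) ℂ)), hb', map_one,
    mul_one]

end Trace

lemma finiteDimensional_fractionRing :
    letI := FractionRing.liftAlgebra (MvPolynomial (Fin n) ℂ) (FractionRing A)
    FiniteDimensional (FractionRing (MvPolynomial (Fin n) ℂ)) (FractionRing A) := by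
  let _ := FractionRing.liftAlgebra (MvPolynomial (Fin n) ℂ) (FractionRing A)
  have := FractionRing.isScalarTower_liftAlgebra (MvPolynomial (Fin n) ℂ) (FractionRing A)
  have : Module.IsTorsionFree (MvPolynomial (Fin n) ℂ) A := Module.isTorsionFree_iff_faithfulSMul.2 inferInstance
  have : IsIntegralClosure A (MvPolynomial (Fin n) ℂ) (FractionRing A) := IsIntegralClosure.of_isIntegrallyClosed _ _ _
  have : Algebra.IsAlgebraic (FractionRing (MvPolynomial (Fin n) ℂ)) (FractionRing A) :=
    isAlgebraic_of_isFractionRing (MvPolynomial (Fin n) ℂ) A ..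
  have : IsLocalization (Algebra.algebraMapSubmonoid A (nonZeroDivisors (MvPolynomial (Fin n) ℂ))) (FractionRing A) :=
    IsIntegralClosure.isLocalization _ (FractionRing (MvPolynomial (Fin n) ℂ)) _ _
  exact Module.Finite.of_isLocalization (MvPolynomial (Fin n) ℂ) A (nonZeroDivisors (MvPolynomial (Fin n) ℂ))

/-- The partial derivatives extend to the function field of the cover. -/
lemma exists_partial (j : Fin n) : ∃ δ : Derivation ℂ (FractionRing A) (FractionRing A),
    ∀ q : (MvPolynomial (Fin n) ℂ), δ (algebraMap A (FractionRing A) (up A q)) =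
      algebraMap A (FractionRing A) (up A (pderiv j q)) := by
  let L := FractionRing A
  let _ := FractionRing.liftAlgebra (MvPolynomial (Fin n) ℂ) L
  have := FractionRing.isScalarTower_liftAlgebra (MvPolynomial (Fin n) ℂ) L
  have hf : FiniteDimensional (FractionRing (MvPolynomial (Fin n) ℂ)) L := finiteDimensional_fractionRing
  have : CharZero (FractionRing (MvPolynomial (Fin n) ℂ)) :=
    charZero_of_injective_algebraMap (algebraMap ℂ (FractionRing (MvPolynomial (Fin n) ℂ))).injective
  have : Algebra.IsSeparable (FractionRing (MvPolynomial (Fin n) ℂ)) L := Algebra.IsAlgebraic.isSeparable_of_perfectField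
  have : Algebra.FormallyEtale (FractionRing (MvPolynomial (Fin n) ℂ)) L := Algebra.FormallyEtale.of_isSeparable _ _
  have : Algebra.FormallyEtale (MvPolynomial (Fin n) ℂ) (FractionRing (MvPolynomial (Fin n) ℂ)) :=
    Algebra.FormallyEtale.of_isLocalization (nonZeroDivisors (MvPolynomial (Fin n) ℂ))
  have : Algebra.FormallyEtale (MvPolynomial (Fin n) ℂ) L := Algebra.FormallyEtale.comp (MvPolynomial (Fin n) ℂ) (FractionRing (MvPolynomial (Fin n) ℂ)) L
  let d : Derivation ℂ (MvPolynomial (Fin n) ℂ) L := (Algebra.linearMap (MvPolynomial (Fin n) ℂ) L).compDer (pderiv j)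
  let g : Ω[L⁄ℂ] →ₗ[L] L := (LinearMap.liftBaseChange L d.liftKaehlerDifferential) ∘ₗ
    (KaehlerDifferential.tensorKaehlerEquivOfFormallyEtale ℂ (MvPolynomial (Fin n) ℂ) L).symm.toLinearMap
  refine ⟨g.compDer (KaehlerDifferential.D ℂ L), fun q => ?_⟩
  rw [← IsScalarTower.algebraMap_apply (MvPolynomial (Fin n) ℂ) A L, ← IsScalarTower.algebraMap_apply (MvPolynomial (Fin n) ℂ) A L]
  change g (KaehlerDifferential.D ℂ L (algebraMap (MvPolynomial (Fin n) ℂ) L q)) = _
  simp only [g, LinearMap.comp_apply, LinearEquiv.coe_coe,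
    KaehlerDifferential.tensorKaehlerEquivOfFormallyEtale_symm_D_algebraMap,
    LinearMap.liftBaseChange_tmul, one_smul, Derivation.liftKaehlerDifferential_comp_D]
  rfl

variable (m : Ideal A) [m.IsMaximal]

/-- The trace criterion. -/
theorem criterion (hm : ∀ l : Fin n, xc A l ∈ m) (v : Fin n → Derivation ℂ A A) {s0 : A}
    (hs0 : s0 ∉ m)
    (hgen : ∀ D : Derivation ℂ A A, ∃ c : Fin n → A, ∀ a, s0 * D a = ∑ i, c i * v i a)
    {t : A} (ht : t ∉ m) :
    t * Matrix.det (Matrix.of fun i l => v i (xc A l)) ∉ Ideal.span (Set.range (xc A (n := n))) := by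
  classical
  intro hmem
  obtain ⟨a, ha⟩ := Ideal.mem_span_range_iff_exists_fun.1 hmem
  rcases Nat.eq_zero_or_pos n with hn | hn
  · subst hn
    rw [Matrix.det_isEmpty, mul_one, Finset.univ_eq_empty, Finset.sum_empty] at ha
    exact ht (ha ▸ m.zero_mem)
  set L := FractionRing A
  let _ := FractionRing.liftAlgebra (MvPolynomial (Fin n) ℂ) L
  have := FractionRing.isScalarTower_liftAlgebra (MvPolynomial (Fin n) ℂ) L
  have hf : FiniteDimensional (FractionRing (MvPolynomial (Fin n) ℂ)) L := finiteDimensional_fractionRing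
  choose dd hdd using fun j => exists_partial (A := A) (n := n) j
  set J := Matrix.det (Matrix.of fun i l => v i (xc A l))
  have hs00 : s0 ≠ 0 := fun h => hs0 (h ▸ m.zero_mem)
  have hloc : ∀ π : (MvPolynomial (Fin n) ℂ), Prime π → ∀ p : Ideal A, p.IsPrime → (∀ q, up A q ∈ p ↔ π ∣ q) →
      J ≠ 0 ∧ ∃ b ∈ p, ∃ s ∉ p, up A π * s0 ^ n * s = b * J :=
    fun π hπ p hp hpπ => by
      haveI := hp
      exact local_bound hπ hpπ dd hdd v hs00 hgen
  have hJ : J ≠ 0 := by
    have hπ : Prime (X ⟨0, hn⟩ : (MvPolynomial (Fin n) ℂ)) := MvPolynomial.X_prime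
    haveI : (Ideal.span {(X ⟨0, hn⟩ : (MvPolynomial (Fin n) ℂ))}).IsPrime :=
      (Ideal.span_singleton_prime hπ.ne_zero).2 hπ
    obtain ⟨Q, -, hQ, hQπ⟩ := Ideal.exists_ideal_over_prime_of_isIntegral
      (Ideal.span {(X ⟨0, hn⟩ : (MvPolynomial (Fin n) ℂ))}) (⊥ : Ideal A) (fun u hu => by
        have : u = 0 := FaithfulSMul.algebraMap_injective (MvPolynomial (Fin n) ℂ) A (by simpa using hu)
        simp [this])
    exact (hloc _ hπ Q hQ fun q => by rw [← Ideal.mem_span_singleton, ← hQπ]; rfl).1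
  have hJL : algebraMap A L J ≠ 0 := (map_ne_zero_iff _ (IsFractionRing.injective A L)).2 hJ
  -- an element vanishing at the other points over the origin
  let o : Ideal (MvPolynomial (Fin n) ℂ) := RingHom.ker (eval (0 : Fin n → ℂ))
  have : o.IsMaximal := RingHom.ker_isMaximal_of_surjective _ fun z => ⟨C z, eval_C z⟩
  have hfin : (o.primesOver A \ {m}).Finite :=
    (Algebra.QuasiFinite.finite_primesOver o).sdiff
  have hsel : ∀ Q ∈ hfin.toFinset, ∃ e ∈ Q, e ∉ m := by
    intro Q hQ
    obtain ⟨⟨hQp, hQo⟩, hQm⟩ := hfin.mem_toFinset.1 hQ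
    have hQmax : Q.IsMaximal := Ideal.IsMaximal.of_liesOver_isMaximal Q o
    by_contra! h
    exact hQm (hQmax.eq_of_le (Ideal.IsPrime.ne_top inferInstance) h)
  choose! e he hem using hsel
  let E := ∏ Q ∈ hfin.toFinset, e Q
  let s := E * (t * s0 ^ n)
  have hsm : s ∉ m := by
    intro h
    rcases Ideal.IsPrime.mem_or_mem inferInstance h with h | h
    · obtain ⟨Q, hQ, hQe⟩ := Ideal.IsPrime.prod_mem_iff.1 h
      exact hem Q hQ hQe
    rcases Ideal.IsPrime.mem_or_mem inferInstance h with h | h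
    · exact ht h
    · exact hs0 (Ideal.IsPrime.mem_of_pow_mem inferInstance _ h)
  -- the value at `m`
  have : Algebra.FiniteType ℂ A :=
    Algebra.FiniteType.trans (S := (MvPolynomial (Fin n) ℂ)) inferInstance inferInstance
  let _ : Field (A ⧸ m) := Ideal.Quotient.field m
  have : Module.Finite ℂ (A ⧸ m) := finite_of_finite_type_of_isJacobsonRing ℂ (A ⧸ m)
  let ev : A →+* ℂ := ((AlgEquiv.ofBijective (Algebra.ofId ℂ (A ⧸ m))
    (IsAlgClosed.algebraMap_bijective_of_isIntegral (k := ℂ) (K := A ⧸ m))).symm).toRingEquiv.toRingHom.comp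
      (Ideal.Quotient.mk m)
  have hev : ∀ b, ev b = 0 ↔ b ∈ m := fun b => by
    simp [ev, ← Ideal.Quotient.eq_zero_iff_mem]
  have hevC : ∀ z : ℂ, ev (algebraMap ℂ A z) = z := fun z => by
    simp [ev]
  have hupC : ∀ z : ℂ, up A (C z : (MvPolynomial (Fin n) ℂ)) = algebraMap ℂ A z := fun z => by
    rw [IsScalarTower.algebraMap_apply ℂ (MvPolynomial (Fin n) ℂ) A, MvPolynomial.algebraMap_eq]
  have hevP : ev.comp (algebraMap (MvPolynomial (Fin n) ℂ) A) = eval (0 : Fin n → ℂ) := by
    refine MvPolynomial.ringHom_ext (fun z => ?_) (fun l => ?_)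
    · rw [eval_C, RingHom.comp_apply, hupC, hevC]
    · rw [eval_X, Pi.zero_apply, RingHom.comp_apply, hev]
      exact hm l
  -- the trace of `s` at the origin
  have hint : ∀ j : Fin n, ∃ q : (MvPolynomial (Fin n) ℂ), algebraMap (MvPolynomial (Fin n) ℂ) (FractionRing (MvPolynomial (Fin n) ℂ)) q =
      Algebra.trace (FractionRing (MvPolynomial (Fin n) ℂ)) L
        (algebraMap A L (E * a j * s0 ^ n) / algebraMap A L J) := by
    intro j
    refine trace_mem (A := A) (FractionRing (MvPolynomial (Fin n) ℂ)) L _ fun π hπ p hp hpπ => ?_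
    obtain ⟨-, b, hb, r, hr, hbr⟩ := hloc π hπ p hp hpπ
    refine ⟨E * a j * b, p.mul_mem_left _ hb, r, hr, ?_⟩
    rw [mul_div_assoc', div_mul_eq_mul_div, div_eq_iff (show algebraMap A L J ≠ 0 from hJL),
      ← map_mul, ← map_mul, ← map_mul]
    congr 1
    linear_combination E * a j * hbr
  choose q hq using hint
  have hc : algebraMap (MvPolynomial (Fin n) ℂ) L (∑ j, X j * q j) = algebraMap (FractionRing (MvPolynomial (Fin n) ℂ)) L
      (Algebra.trace (FractionRing (MvPolynomial (Fin n) ℂ)) L (algebraMap A L s)) := by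
    have hs : algebraMap A L s = ∑ j, algebraMap (MvPolynomial (Fin n) ℂ) (FractionRing (MvPolynomial (Fin n) ℂ)) (X j) •
        (algebraMap A L (E * a j * s0 ^ n) / algebraMap A L J) := by
      simp only [Algebra.smul_def, ← IsScalarTower.algebraMap_apply (MvPolynomial (Fin n) ℂ) (FractionRing (MvPolynomial (Fin n) ℂ)) L,
        IsScalarTower.algebraMap_apply (MvPolynomial (Fin n) ℂ) A L, mul_div, ← map_mul, ← Finset.sum_div, ← map_sum]
      rw [eq_div_iff hJL, ← map_mul]
      congr 1
      calc s * J = E * s0 ^ n * (t * J) := by ring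
        _ = _ := by
          rw [← ha, Finset.mul_sum]
          exact Finset.sum_congr rfl fun j _ => by ring
    rw [hs, IsScalarTower.algebraMap_apply (MvPolynomial (Fin n) ℂ)
      (FractionRing (MvPolynomial (Fin n) ℂ)) L]
    simp only [map_sum, map_mul, map_smul, hq, smul_eq_mul]
  have hval : ∀ ψ : A →+* ℂ, ψ.comp (algebraMap (MvPolynomial (Fin n) ℂ) A) = eval (0 : Fin n → ℂ) →
      ψ s = 0 ∨ ψ s = ev s := by
    intro ψ hψ
    have hψC : ∀ z : ℂ, ψ (algebraMap ℂ A z) = z := fun z => by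
      have := DFunLike.congr_fun hψ (C z)
      rwa [RingHom.comp_apply, hupC, eval_C] at this
    have hkp : (RingHom.ker ψ).IsPrime := RingHom.ker_isPrime ψ
    by_cases hk : RingHom.ker ψ = m
    · refine Or.inr ?_
      have : s - algebraMap ℂ A (ev s) ∈ RingHom.ker ψ := by
        rw [hk, ← hev, map_sub, hevC, sub_self]
      rw [RingHom.mem_ker, map_sub, hψC, sub_eq_zero] at this
      exact this
    · refine Or.inl ?_
      have hQ : RingHom.ker ψ ∈ hfin.toFinset := by
        refine hfin.mem_toFinset.2 ⟨⟨hkp, ⟨?_⟩⟩, hk⟩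
        ext f
        change f ∈ o ↔ algebraMap (MvPolynomial (Fin n) ℂ) A f ∈ RingHom.ker ψ
        rw [RingHom.mem_ker, RingHom.mem_ker, ← hψ]; rfl
      have hE : ψ E = 0 := RingHom.mem_ker.1
        (Ideal.IsPrime.prod_mem_iff.2 ⟨_, hQ, he _ hQ⟩)
      simp [s, hE]
  exact trace_ne_zero_at (FractionRing (MvPolynomial (Fin n) ℂ)) L (eval (0 : Fin n → ℂ))
    (fun h => hsm ((hev s).1 h)) hc hval ⟨ev, hevP, rfl⟩ (by simp)

/-- A vector field preserving the parameter ideal at `m` has all its coefficients, with respect to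
a frame at `m`, in `m`. -/
theorem coeff_mem (hm : ∀ l : Fin n, xc A l ∈ m) (v : Fin n → Derivation ℂ A A) {s0 : A}
    (hs0 : s0 ∉ m)
    (hgen : ∀ D : Derivation ℂ A A, ∃ c : Fin n → A, ∀ a, s0 * D a = ∑ i, c i * v i a)
    (D : Derivation ℂ A A) {t : A} (ht : t ∉ m)
    (hD : ∀ l : Fin n, t * D (xc A l) ∈ Ideal.span (Set.range (xc A (n := n))))
    {c : Fin n → A} (hc : ∀ a, s0 * D a = ∑ i, c i * v i a) (i : Fin n) : c i ∈ m := by
  classical
  by_contra hi
  let M : Matrix (Fin n) (Fin n) A := Matrix.of fun i l => v i (xc A l)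
  have hrow : (fun l => s0 * D (xc A l)) = ∑ k, c k • M k :=
    funext fun l => by simp [hc, M, Finset.sum_apply]
  have hdet : (M.updateRow i (fun l => s0 * D (xc A l))).det = c i * M.det := by
    rw [hrow, Matrix.det_updateRow_sum, smul_eq_mul]
  refine criterion m hm v hs0 hgen (t := t * c i)
    (fun h => (Ideal.IsPrime.mem_or_mem inferInstance h).elim ht hi) ?_
  change t * c i * M.det ∈ _
  rw [mul_assoc, ← hdet, ← Matrix.det_updateRow_smul, Matrix.det_apply]
  refine Ideal.sum_mem _ fun σ _ => Submodule.smul_of_tower_mem _ _ ?_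
  refine Ideal.prod_mem _ (Finset.mem_univ (σ⁻¹ i)) ?_
  simp only [Equiv.Perm.inv_def, Equiv.apply_symm_apply, Matrix.updateRow_self, Pi.smul_apply,
    smul_eq_mul]
  rw [mul_left_comm]
  exact Ideal.mul_mem_left _ _ (hD _)

/-- A frame of length `n` generating the derivation module at `m`. -/
theorem exists_frame [Module.Projective A (Derivation ℂ A A)] :
    ∃ v : Fin n → Derivation ℂ A A, ∃ s0 ∉ m,
      ∀ D, s0 • D ∈ Submodule.span A (Set.range v) := by
  classical
  let co : Derivation ℂ A A →ₗ[A] (Fin n → A) :=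
    { toFun := fun D l => D (xc A l)
      map_add' := fun _ _ => rfl
      map_smul' := fun _ _ => rfl }
  have hco : LinearMap.ker co = ⊥ := LinearMap.ker_eq_bot'.2 fun D hD =>
    deriv_eq_zero D fun l => congr_fun hD l
  have : IsNoetherianRing A := isNoetherianRing_iff.2 (isNoetherian_of_tower (MvPolynomial (Fin n) ℂ) inferInstance)
  have : Module.Finite A (Derivation ℂ A A) :=
    Module.Finite.of_injective co (LinearMap.ker_eq_bot.1 hco)
  let M := Derivation ℂ A A
  let S := m.primeCompl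
  let R := Localization.AtPrime m
  let N := LocalizedModule S M
  let f : M →ₗ[A] N := LocalizedModule.mkLinearMap S M
  have : Module.Finite R N := Module.Finite.of_isLocalizedModule S f
  have : Module.Projective R N := Module.projective_of_isLocalizedModule S f
  have : Module.Free R N := Module.free_of_flat_of_isLocalRing
  let b := Module.Free.chooseBasis R N
  have hsurj : ∀ i, ∃ w : S, ∃ D : M, w • b i = f D := fun i => by
    obtain ⟨⟨D, w⟩, h⟩ := IsLocalizedModule.surj S f (b i)
    exact ⟨w, D, h⟩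
  choose w v hv using hsurj
  have hli : LinearIndependent A v := by
    rw [Fintype.linearIndependent_iff]
    intro g hg i
    have h0 : ∑ i, algebraMap A R (g i * (w i : A)) • b i = 0 := by
      have := congr_arg f hg
      rw [map_sum, map_zero] at this
      refine (Finset.sum_congr rfl fun i _ => ?_).trans this
      rw [map_smul, ← hv, algebraMap_smul, mul_smul]; rfl
    have := Fintype.linearIndependent_iff.1 b.linearIndependent _ h0 i
    rw [map_eq_zero_iff _ (IsLocalization.injective R m.primeCompl_le_nonZeroDivisors)] at this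
    exact (mul_eq_zero.1 this).resolve_right fun h => (w i).2 (h ▸ m.zero_mem)
  have hcard : Fintype.card (Module.Free.ChooseBasisIndex R N) ≤ n := by
    have := (hli.map' co hco).fintype_card_le_finrank
    simpa using this
  obtain ⟨emb⟩ : Nonempty (Module.Free.ChooseBasisIndex R N ↪ Fin n) :=
    Function.Embedding.nonempty_of_card_le (by simpa using hcard)
  refine ⟨Function.extend emb v 0, ?_⟩
  have hv' : ∀ i, v i ∈ Submodule.span A (Set.range (Function.extend emb v 0)) := fun i =>
    Submodule.subset_span ⟨emb i, emb.injective.extend_apply v 0 i⟩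
  let U := Submodule.span A (Set.range (Function.extend emb v 0))
  have hQ : ∀ z : N, ∃ r : S, ∃ D ∈ U, r • z = f D := by
    intro z
    have hz : z ∈ Submodule.span R (Set.range b) := b.span_eq ▸ Submodule.mem_top
    induction hz using Submodule.span_induction with
    | mem y hy => obtain ⟨i, rfl⟩ := hy; exact ⟨w i, v i, hv' i, hv i⟩
    | zero => exact ⟨1, 0, U.zero_mem, by simp⟩
    | add y z _ _ hy hz =>
      obtain ⟨r, D, hD, hr⟩ := hy
      obtain ⟨r', D', hD', hr'⟩ := hz
      refine ⟨r * r', (r' : A) • D + (r : A) • D', U.add_mem (U.smul_mem _ hD) (U.smul_mem _ hD'),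
        ?_⟩
      rw [map_add, map_smul, map_smul, ← hr, ← hr', smul_add]
      congr 1
      · rw [mul_comm r r', mul_smul]; rfl
      · rw [mul_smul]; rfl
    | smul c y _ hy =>
      obtain ⟨r, D, hD, hr⟩ := hy
      obtain ⟨⟨c', cs⟩, hc⟩ := IsLocalization.surj S c
      refine ⟨cs * r, c' • D, U.smul_mem _ hD, ?_⟩
      rw [map_smul, ← hr, Submonoid.smul_def, Submonoid.smul_def, Submonoid.coe_mul, mul_smul,
        ← algebraMap_smul R (cs : A), ← algebraMap_smul R (r : A) (c • y),
        ← algebraMap_smul R (r : A) y, ← algebraMap_smul R c' (algebraMap A R (r : A) • y),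
        smul_smul, smul_smul, smul_smul, ← hc]
      congr 1
      ring
  obtain ⟨G, hG⟩ := (inferInstance : Module.Finite A M).fg_top
  have hone : ∀ D : M, ∃ r : S, (r : A) • D ∈ U := fun D => by
    obtain ⟨r, D', hD', h⟩ := hQ (f D)
    obtain ⟨r', hr'⟩ := IsLocalizedModule.exists_of_eq (S := S) (f := f)
      (x₁ := (r : A) • D) (x₂ := D') (by rw [map_smul, ← h]; rfl)
    refine ⟨r' * r, ?_⟩
    rw [Submonoid.coe_mul, mul_smul]
    exact (show (r' : A) • ((r : A) • D) = (r' : A) • D' from hr') ▸ U.smul_mem _ hD'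
  choose r hr using hone
  refine ⟨∏ D ∈ G, (r D : A), fun h => ?_, fun D => ?_⟩
  · obtain ⟨D, -, hD⟩ := Ideal.IsPrime.prod_mem_iff.1 h
    exact (r D).2 hD
  · have hD : D ∈ Submodule.span A (G : Set M) := hG ▸ Submodule.mem_top
    induction hD using Submodule.span_induction with
    | mem y hy =>
      rw [← Finset.mul_prod_erase G (fun D => (r D : A)) (Finset.mem_coe.1 hy), mul_comm, mul_smul]
      exact U.smul_mem _ (hr y)
    | zero => simp
    | add y z _ _ hy hz => rw [smul_add]; exact U.add_mem hy hz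
    | smul c y _ hy => rw [smul_comm]; exact U.smul_mem _ hy

end

end Vale.Agent.P266.Trace
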